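import Mathlib

namespace Vale.Agent.P342h37

open Finset

variable {V : Type} [Fintype V] [DecidableEq V]

/-- Vertices without a neighbour in D. -/
def undom (G : SimpleGraph V) [DecidableRel G.Adj] (D : Finset V) : Finset V :=
  univ.filter fun u => ∀ v ∈ D, ¬ G.Adj v u

/-- Greedy run: D 0 is empty and each step adds a vertex with the largest number of neighbours
that have no neighbour in the set. -/
def IsGreedy (G : SimpleGraph V) [DecidableRel G.Adj] (D : ℕ → Finset V) : Prop :=
  D 0 = ∅ ∧ ∀ t, ∃ v, D (t + 1) = insert v (D t) ∧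
    ∀ w, ((undom G (D t)).filter fun u => G.Adj w u).card
      ≤ ((undom G (D t)).filter fun u => G.Adj v u).card

theorem undom_insert (G : SimpleGraph V) [DecidableRel G.Adj] (D : Finset V) (v : V) :
    (undom G (insert v D)).card
      + ((undom G D).filter fun u => G.Adj v u).card = (undom G D).card := by
  have h : undom G (insert v D) = (undom G D).filter fun u => ¬ G.Adj v u := by
    ext u
    simp only [undom, mem_filter, mem_univ, true_and, mem_insert, forall_eq_or_imp]
    tauto
  rw [h, add_comm]
  exact Finset.card_filter_add_card_filter_not (s := undom G D) (fun u => G.Adj v u)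

theorem exists_many (G : SimpleGraph V) [DecidableRel G.Adj] (δ : ℕ)
    (hδ : ∀ v, δ ≤ G.degree v) (U : Finset V) (w : V)
    (hw : ∀ v, (U.filter fun u => G.Adj v u).card ≤ (U.filter fun u => G.Adj w u).card) :
    δ * U.card ≤ Fintype.card V * (U.filter fun u => G.Adj w u).card := by
  have h1 : ∑ v, (U.filter fun u => G.Adj v u).card = ∑ u ∈ U, G.degree u := by
    simp only [Finset.card_filter]
    rw [Finset.sum_comm]
    refine Finset.sum_congr rfl fun u _ => ?_
    rw [← Finset.card_filter]
    rw [← SimpleGraph.card_neighborFinset_eq_degree]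
    congr 1
    ext v
    simp [G.adj_comm]
  calc δ * U.card = ∑ _u ∈ U, δ := by simp [mul_comm]
    _ ≤ ∑ u ∈ U, G.degree u := Finset.sum_le_sum fun u _ => hδ u
    _ = ∑ v, (U.filter fun u => G.Adj v u).card := h1.symm
    _ ≤ ∑ _v : V, (U.filter fun u => G.Adj w u).card := Finset.sum_le_sum fun v _ => hw v
    _ = _ := by simp

theorem undom_bound (G : SimpleGraph V) [DecidableRel G.Adj] (δ : ℕ)
    (hδ : ∀ v, δ ≤ G.degree v) (hn : 0 < Fintype.card V) (D : ℕ → Finset V)
    (hD : IsGreedy G D) (t : ℕ) :
    ((undom G (D t)).card : ℝ) ≤ Fintype.card V * Real.exp (-(δ * t / Fintype.card V)) := by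
  have hn' : (0 : ℝ) < Fintype.card V := by exact_mod_cast hn
  induction t with
  | zero =>
    have : (undom G (D 0)).card ≤ Fintype.card V := Finset.card_le_univ _
    have h2 : ((undom G (D 0)).card : ℝ) ≤ Fintype.card V := by exact_mod_cast this
    simpa using h2
  | succ t ih =>
    obtain ⟨v, h1, h2⟩ := hD.2 t
    have h3 := undom_insert G (D t) v
    have h4 := exists_many G δ hδ (undom G (D t)) v h2
    rw [h1]
    have h3' : ((undom G (insert v (D t))).card : ℝ)
        + ((undom G (D t)).filter fun u => G.Adj v u).card = (undom G (D t)).card := by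
      exact_mod_cast h3
    have h4' : (δ : ℝ) * (undom G (D t)).card
        ≤ Fintype.card V * ((undom G (D t)).filter fun u => G.Adj v u).card := by
      exact_mod_cast h4
    have h5 : (δ : ℝ) / Fintype.card V * (undom G (D t)).card
        ≤ ((undom G (D t)).filter fun u => G.Adj v u).card := by
      rw [div_mul_eq_mul_div, div_le_iff₀ hn']; linarith
    have h6 : ((undom G (insert v (D t))).card : ℝ)
        ≤ (1 - (δ : ℝ) / Fintype.card V) * (undom G (D t)).card := by linarith
    have h7 : 1 - (δ : ℝ) / Fintype.card V ≤ Real.exp (-((δ : ℝ) / Fintype.card V)) :=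
      Real.one_sub_le_exp_neg _
    calc ((undom G (insert v (D t))).card : ℝ)
        ≤ (1 - (δ : ℝ) / Fintype.card V) * (undom G (D t)).card := h6
      _ ≤ Real.exp (-((δ : ℝ) / Fintype.card V)) * (undom G (D t)).card :=
          mul_le_mul_of_nonneg_right h7 (Nat.cast_nonneg _)
      _ ≤ Real.exp (-((δ : ℝ) / Fintype.card V))
          * (Fintype.card V * Real.exp (-(δ * t / Fintype.card V))) :=
          mul_le_mul_of_nonneg_left ih (Real.exp_pos _).le
      _ = Fintype.card V * Real.exp (-(δ * ((t + 1 : ℕ) : ℝ) / Fintype.card V)) := by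
          rw [mul_left_comm, ← Real.exp_add]
          congr 2
          push_cast
          ring

theorem exists_greedy [Nonempty V] (G : SimpleGraph V) [DecidableRel G.Adj] :
    ∃ D : ℕ → Finset V, IsGreedy G D := by
  have h : ∀ S : Finset V, ∃ v, ∀ w, ((undom G S).filter fun u => G.Adj w u).card
      ≤ ((undom G S).filter fun u => G.Adj v u).card := by
    intro S
    obtain ⟨v, _, hv⟩ := Finset.exists_max_image (univ : Finset V)
      (fun v => ((undom G S).filter fun u => G.Adj v u).card) univ_nonempty
    exact ⟨v, fun w => hv w (mem_univ _)⟩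
  choose g hg using h
  exact ⟨fun t => Nat.rec ∅ (fun _ S => insert (g S) S) t, rfl, fun t => ⟨_, rfl, hg _⟩⟩

end Vale.Agent.P342h37
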